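import Mathlib

open Real Set Filter Topology intervalIntegral
open scoped ContDiff RealInnerProductSpace

namespace Vale.Agent.P229

theorem antideriv {h : ℝ → ℝ} (hh : ContDiff ℝ ∞ h) (x0 : ℝ) :
    ∃ H : ℝ → ℝ, ContDiff ℝ ∞ H ∧ ∀ x, HasDerivAt H (h x) x := by
  refine ⟨fun x => ∫ t in x0..x, h t, ?_, fun x =>
    (hh.continuous.integral_hasStrictDerivAt x0 x).hasDerivAt⟩
  have hd : ∀ x, HasDerivAt (fun x => ∫ t in x0..x, h t) (h x) x := fun x =>
    (hh.continuous.integral_hasStrictDerivAt x0 x).hasDerivAt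
  exact contDiff_infty_iff_deriv.2 ⟨fun x => (hd x).differentiableAt,
    by rw [funext fun x => (hd x).deriv]; exact hh⟩

theorem antiderivOn {h : ℝ → ℝ} {l r x0 : ℝ} (hx0 : x0 ∈ Ioo l r)
    (hh : ContDiffOn ℝ ∞ h (Ioo l r)) :
    ∃ H : ℝ → ℝ, ContDiffOn ℝ ∞ H (Ioo l r) ∧ ∀ x ∈ Ioo l r, HasDerivAt H (h x) x := by
  have hd : ∀ x ∈ Ioo l r, HasDerivAt (fun x => ∫ t in x0..x, h t) (h x) x := by
    intro x hx
    have hsub : uIcc x0 x ⊆ Ioo l r := ordConnected_Ioo.uIcc_subset hx0 hx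
    exact integral_hasDerivAt_right (hh.continuousOn.mono hsub).intervalIntegrable
      (hh.continuousOn.stronglyMeasurableAtFilter isOpen_Ioo x hx)
      (hh.continuousOn.continuousAt (isOpen_Ioo.mem_nhds hx))
  refine ⟨_, ?_, hd⟩
  exact (contDiffOn_infty_iff_deriv_of_isOpen isOpen_Ioo).2
    ⟨fun x hx => (hd x hx).differentiableAt.differentiableWithinAt,
      hh.congr fun x hx => (hd x hx).deriv⟩

theorem hasDerivAt_euclidean {n : ℕ} {φ : ℝ → EuclideanSpace ℝ (Fin n)}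
    {φ' : EuclideanSpace ℝ (Fin n)} {x : ℝ}
    (h : ∀ i, HasDerivAt (fun s => φ s i) (φ' i) x) : HasDerivAt φ φ' x := by
  have h' : HasDerivAt (fun s => WithLp.ofLp (φ s)) (WithLp.ofLp φ') x := hasDerivAt_pi.2 h
  simpa [Function.comp_def] using
    ((PiLp.continuousLinearEquiv 2 ℝ (fun _ : Fin n => ℝ)).symm).hasFDerivAt.comp_hasDerivAt x h'

end Vale.Agent.P229

open Vale.Agent.P229 in
theorem Vale.Agent.Results.P229.MouldingMetrics.result :
    ∀ (a b w : ℝ → ℝ), ContDiff ℝ ∞ a → ContDiff ℝ ∞ b → ContDiff ℝ ∞ w →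
      ∀ p : ℝ × ℝ, a p.1 + b p.1 * w p.2 ≠ 0 →
        ∃ (U : Set (ℝ × ℝ)) (F : ℝ × ℝ → EuclideanSpace ℝ (Fin 3)),
          IsOpen U ∧ p ∈ U ∧ ContDiffOn ℝ ∞ F U ∧ ∀ q ∈ U,
            a q.1 + b q.1 * w q.2 ≠ 0 ∧
            ⟪fderiv ℝ F q (1, 0), fderiv ℝ F q (1, 0)⟫ = (a q.1 + b q.1 * w q.2) ^ 2 ∧
            ⟪fderiv ℝ F q (1, 0), fderiv ℝ F q (0, 1)⟫ = 0 ∧
            ⟪fderiv ℝ F q (0, 1), fderiv ℝ F q (0, 1)⟫ = 1 := by
  intro a b w ha hb hw p hp
  set L : ℝ := |deriv w p.2| + 1 with hLdef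
  have hL : 0 < L := by positivity
  have hw' : ContDiff ℝ ∞ (deriv w) := (contDiff_infty_iff_deriv.1 hw).2
  have hopen : IsOpen {t : ℝ | |deriv w t| < L} :=
    isOpen_lt hw'.continuous.abs continuous_const
  obtain ⟨l, r, hmem, hJ⟩ := mem_nhds_iff_exists_Ioo_subset.1
    (hopen.mem_nhds (show |deriv w p.2| < L by rw [hLdef]; linarith))
  -- the profile curve
  have hpos : ∀ t ∈ Ioo l r, 0 < 1 - (deriv w t / L) ^ 2 := by
    intro t ht
    have h : |deriv w t| < L := hJ ht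
    have h' : |deriv w t / L| < 1 := by rw [abs_div, abs_of_pos hL, div_lt_one hL]; exact h
    have := sq_lt_one_iff_abs_lt_one _ |>.2 h'
    linarith
  obtain ⟨z, hz, hzd⟩ := antiderivOn hmem (h := fun t => Real.sqrt (1 - (deriv w t / L) ^ 2))
    ((contDiffOn_const.sub ((hw'.div_const L).contDiffOn.pow 2)).sqrt fun t ht => (hpos t ht).ne')
  -- the spine
  obtain ⟨φ, hφ, hφd⟩ := antideriv (h := fun s => -(b s * L)) ((hb.mul contDiff_const).neg) p.1
  obtain ⟨c₁, hc₁, hc₁d⟩ := antideriv (h := fun s => a s * cos (φ s)) (ha.mul hφ.cos) p.1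
  obtain ⟨c₂, hc₂, hc₂d⟩ := antideriv (h := fun s => a s * sin (φ s)) (ha.mul hφ.sin) p.1
  set G : ℝ × ℝ → EuclideanSpace ℝ (Fin 3) := fun q =>
    !₂[c₁ q.1 - w q.2 / L * sin (φ q.1), c₂ q.1 + w q.2 / L * cos (φ q.1), z q.2] with hG
  refine ⟨(univ ×ˢ Ioo l r) ∩ {q | a q.1 + b q.1 * w q.2 ≠ 0}, G, ?_, ⟨⟨trivial, hmem⟩, hp⟩, ?_, ?_⟩
  · exact (isOpen_univ.prod isOpen_Ioo).inter (isOpen_ne_fun
      ((ha.continuous.comp continuous_fst).add
        ((hb.continuous.comp continuous_fst).mul (hw.continuous.comp continuous_snd)))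
      continuous_const)
  · rw [contDiffOn_piLp]
    intro i
    fin_cases i
    · simpa [hG] using ((hc₁.comp contDiff_fst).sub (((hw.comp contDiff_snd).div_const L).mul
        (hφ.comp contDiff_fst).sin)).contDiffOn
    · simpa [hG] using ((hc₂.comp contDiff_fst).add (((hw.comp contDiff_snd).div_const L).mul
        (hφ.comp contDiff_fst).cos)).contDiffOn
    · simpa [hG, Function.comp_def] using hz.comp contDiff_snd.contDiffOn fun q hq => hq.1.2
  · intro q hq
    refine ⟨hq.2, ?_⟩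
    have hwd : HasDerivAt w (deriv w q.2) q.2 :=
      ((hw.differentiable (by simp)) q.2).hasDerivAt
    set f := a q.1 + b q.1 * w q.2 with hf
    have hu : HasDerivAt (fun s => G (s, q.2))
        (!₂[f * cos (φ q.1), f * sin (φ q.1), 0] : EuclideanSpace ℝ (Fin 3)) q.1 := by
      have hu1 : HasDerivAt (fun s => c₁ s - w q.2 / L * sin (φ s)) (f * cos (φ q.1)) q.1 :=
        ((hc₁d q.1).fun_sub (((hφd q.1).sin).const_mul (w q.2 / L))).congr_deriv
          (by rw [hf]; field_simp; ring)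
      have hu2 : HasDerivAt (fun s => c₂ s + w q.2 / L * cos (φ s)) (f * sin (φ q.1)) q.1 :=
        ((hc₂d q.1).fun_add (((hφd q.1).cos).const_mul (w q.2 / L))).congr_deriv
          (by rw [hf]; field_simp)
      refine hasDerivAt_euclidean ?_
      intro i
      fin_cases i
      · simpa [hG] using hu1
      · simpa [hG] using hu2
      · simpa [hG] using hasDerivAt_const q.1 (z q.2)
    have hv : HasDerivAt (fun t => G (q.1, t))
        (!₂[-(deriv w q.2 / L) * sin (φ q.1), deriv w q.2 / L * cos (φ q.1),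
          Real.sqrt (1 - (deriv w q.2 / L) ^ 2)] : EuclideanSpace ℝ (Fin 3)) q.2 := by
      refine hasDerivAt_euclidean ?_
      intro i
      fin_cases i
      · simpa [hG] using (((hwd.div_const L).mul_const (sin (φ q.1))).const_sub (c₁ q.1)).congr_deriv
          (show _ = -(deriv w q.2 / L) * sin (φ q.1) by ring)
      · simpa [hG] using ((hwd.div_const L).mul_const (cos (φ q.1))).const_add (c₂ q.1)
      · simpa [hG] using hzd q.2 hq.1.2
    have hdiff : DifferentiableAt ℝ G q := by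
      rw [differentiableAt_piLp]
      intro i
      have h1 : ∀ (h : ℝ → ℝ), ContDiff ℝ ∞ h → DifferentiableAt ℝ (fun x : ℝ × ℝ => h x.1) q :=
        fun h hh => (hh.comp contDiff_fst).differentiable (by simp) q
      have h2 : DifferentiableAt ℝ (fun x : ℝ × ℝ => w x.2 / L) q :=
        (((hw.comp contDiff_snd).div_const L).differentiable (by simp)) q
      fin_cases i
      · simpa [hG] using (h1 c₁ hc₁).fun_sub (h2.fun_mul (h1 _ hφ.sin))
      · simpa [hG] using (h1 c₂ hc₂).fun_add (h2.fun_mul (h1 _ hφ.cos))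
      · simpa [hG, Function.comp_def] using ((hzd q.2 hq.1.2).differentiableAt).comp q differentiableAt_snd
    have e1 : fderiv ℝ G q (1, 0) = !₂[f * cos (φ q.1), f * sin (φ q.1), 0] := by
      have := hdiff.hasFDerivAt.comp_hasDerivAt q.1
        ((hasDerivAt_id q.1).prodMk (hasDerivAt_const q.1 q.2))
      exact this.unique hu
    have e2 : fderiv ℝ G q (0, 1) = !₂[-(deriv w q.2 / L) * sin (φ q.1),
        deriv w q.2 / L * cos (φ q.1), Real.sqrt (1 - (deriv w q.2 / L) ^ 2)] := by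
      have := hdiff.hasFDerivAt.comp_hasDerivAt q.2
        ((hasDerivAt_const q.2 q.1).prodMk (hasDerivAt_id q.2))
      exact this.unique hv
    have hs := sin_sq_add_cos_sq (φ q.1)
    have hr := Real.sq_sqrt (hpos q.2 hq.1.2).le
    rw [e1, e2]
    simp only [PiLp.inner_apply, Fin.sum_univ_three, RCLike.inner_apply, conj_trivial]
    simp only [Matrix.cons_val_zero, Matrix.cons_val_one, Matrix.cons_val_two, Matrix.tail_cons, Matrix.head_cons]
    refine ⟨?_, ?_, ?_⟩
    · linear_combination f ^ 2 * hs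
    · ring
    · linear_combination (deriv w q.2 / L) ^ 2 * hs + hr
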