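import Vale.Agent.P229.Final
import Vale.Agent.P229.Est.Main

/-! # P229 — a smooth metric on the plane with no smooth isometric immersion into three-space -/

open scoped ContDiff RealInnerProductSpace

theorem Vale.Agent.Results.P229.NoSmoothIsometricImmersion.result :
    ∃ E F G : ℝ × ℝ → ℝ,
      ContDiff ℝ ∞ E ∧ ContDiff ℝ ∞ F ∧ ContDiff ℝ ∞ G ∧
      (∀ q, 0 < E q ∧ 0 < E q * G q - F q ^ 2) ∧
      ∀ U : Set (ℝ × ℝ), IsOpen U → (0 : ℝ × ℝ) ∈ U →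
        ¬ ∃ X : ℝ × ℝ → EuclideanSpace ℝ (Fin 3), ContDiffOn ℝ (100 : ℕ) X U ∧ ∀ q ∈ U,
          ⟪fderiv ℝ X q (1, 0), fderiv ℝ X q (1, 0)⟫ = E q ∧
          ⟪fderiv ℝ X q (1, 0), fderiv ℝ X q (0, 1)⟫ = F q ∧
          ⟪fderiv ℝ X q (0, 1), fderiv ℝ X q (0, 1)⟫ = G q :=
  Vale.Agent.P229.noImmersion_of_parts Vale.Agent.P229.estSpec
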